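import Vale.Agent.P211.Alg.Spectral.Kato
import Vale.Agent.P204.General.Basic.Orient

/-!
# P211: the splitting of two-forms on `ℝ⁴` and its invariance under rotations
-/

open Matrix
open Vale.Agent.P204.Torus (wedge)

namespace Vale.Agent.P211.SelfDual

open Spectral (IsTriple)

noncomputable section

/-- The entrywise inner product of two matrices. -/
def pair (A B : M4) : ℝ := ∑ i, ∑ j, A i j * B i j

theorem pair_eq_trace (A B : M4) : pair A B = (A.transpose * B).trace := by
  simp only [pair, Matrix.trace, Matrix.diag, mul_apply, transpose_apply]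
  exact Finset.sum_comm

theorem pair_comm (A B : M4) : pair A B = pair B A := by
  simp only [pair, mul_comm]

theorem pair_conj {T : M4} (hT : T.transpose * T = 1) (A B : M4) :
    pair (T * A * T.transpose) (T * B * T.transpose) = pair A B := by
  simp only [pair_eq_trace, transpose_mul, transpose_transpose, Matrix.mul_assoc]
  rw [← Matrix.mul_assoc T.transpose T, hT, Matrix.one_mul, trace_mul_comm T]
  simp only [Matrix.mul_assoc]
  rw [hT, Matrix.mul_one]

theorem pair_sum_right {ι : Type*} (s : Finset ι) (A : M4) (c : ι → ℝ) (B : ι → M4) :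
    pair A (∑ t ∈ s, c t • B t) = ∑ t ∈ s, c t * pair A (B t) := by
  simp only [pair_eq_trace, Matrix.mul_sum, Matrix.mul_smul, trace_sum, trace_smul, smul_eq_mul]

theorem isTriple_Jp : IsTriple Jp := by
  constructor
  case skew => intro a; fin_cases a <;> ext i j <;> fin_cases i <;> fin_cases j <;> simp [Jp]
  case sq =>
    intro a
    fin_cases a <;> ext i j <;> fin_cases i <;> fin_cases j <;>
      simp [Jp, mul_apply, Fin.sum_univ_four]
  all_goals ext i j; fin_cases i <;> fin_cases j <;> simp [Jp, mul_apply, Fin.sum_univ_four]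

theorem isTriple_Jm : IsTriple Jm := by
  constructor
  case skew => intro a; fin_cases a <;> ext i j <;> fin_cases i <;> fin_cases j <;> simp [Jm]
  case sq =>
    intro a
    fin_cases a <;> ext i j <;> fin_cases i <;> fin_cases j <;>
      simp [Jm, mul_apply, Fin.sum_univ_four]
  all_goals ext i j; fin_cases i <;> fin_cases j <;> simp [Jm, mul_apply, Fin.sum_univ_four]

theorem Jp_mul_Jm (a b : Fin 3) : Jp a * Jm b = Jm b * Jp a := by
  fin_cases a <;> fin_cases b <;> ext i j <;> fin_cases i <;> fin_cases j <;>
    simp [Jp, Jm, mul_apply, Fin.sum_univ_four]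

theorem pair_Jp_Jp (a b : Fin 3) : pair (Jp a) (Jp b) = 4 * (1 : M3) a b := by
  fin_cases a <;> fin_cases b <;> simp [pair, Jp, Fin.sum_univ_four] <;> norm_num

theorem pair_Jm_Jm (a b : Fin 3) : pair (Jm a) (Jm b) = 4 * (1 : M3) a b := by
  fin_cases a <;> fin_cases b <;> simp [pair, Jm, Fin.sum_univ_four] <;> norm_num

theorem pair_Jp_Jm (a b : Fin 3) : pair (Jp a) (Jm b) = 0 := by
  fin_cases a <;> fin_cases b <;> simp [pair, Jp, Jm, Fin.sum_univ_four]

theorem skew_apply {A : M4} (hA : A.transpose = -A) (i j : Fin 4) : A j i = -A i j := by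
  simpa using congrFun (congrFun hA i) j

/-- Every two-form is the sum of its self-dual and anti-self-dual parts. -/
theorem decomp {A : M4} (hA : A.transpose = -A) :
    A = ∑ a, ((pair (Jp a) A / 4) • Jp a + (pair (Jm a) A / 4) • Jm a) := by
  have h := skew_apply hA
  ext i j
  fin_cases i <;> fin_cases j <;>
    simp [pair, Jp, Jm, Fin.sum_univ_four, Fin.sum_univ_three] <;>
    linarith [h 0 0, h 1 1, h 2 2, h 3 3, h 0 1, h 0 2, h 0 3, h 1 2, h 1 3, h 2 3]

theorem wedge_Jp {A : M4} (hA : A.transpose = -A) (b : Fin 3) :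
    wedge A (Jp b) = pair A (Jp b) / 2 := by
  have h := skew_apply hA
  fin_cases b <;> simp [wedge, pair, Jp, Fin.sum_univ_four] <;>
    linarith [h 0 1, h 0 2, h 0 3, h 1 2, h 1 3, h 2 3]

theorem wedge_Jm {A : M4} (hA : A.transpose = -A) (b : Fin 3) :
    wedge A (Jm b) = -(pair A (Jm b) / 2) := by
  have h := skew_apply hA
  fin_cases b <;> simp [wedge, pair, Jm, Fin.sum_univ_four] <;>
    linarith [h 0 1, h 0 2, h 0 3, h 1 2, h 1 3, h 2 3]

theorem wedge_comm' (A B : M4) : wedge A B = wedge B A := by
  simp only [wedge]; ring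

theorem skew_rot {A : M4} (hA : A.transpose = -A) (T : M4) :
    (T * A * T.transpose).transpose = -(T * A * T.transpose) := by
  rw [transpose_mul, transpose_mul, transpose_transpose, hA, Matrix.neg_mul, Matrix.mul_neg,
    Matrix.mul_assoc]

/-- The wedge product is invariant under rotations. -/
theorem wedge_rot {T : M4} (hd : T.det = 1) {A B : M4}
    (hA : A.transpose = -A) (hB : B.transpose = -B) :
    wedge (T * A * T.transpose) (T * B * T.transpose) = wedge A B := by
  have h := Vale.Agent.P204.General.wedge_congr hA hB T.transpose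
  rwa [transpose_transpose, det_transpose, hd, one_mul] at h

variable {T : M4} (hT : T.transpose * T = 1) (hd : T.det = 1)
include hT hd

/-- A rotation keeps the self-dual forms self-dual. -/
theorem pair_rot_Jp_Jm (a b : Fin 3) : pair (Jm b) (T * Jp a * T.transpose) = 0 := by
  have hs := skew_rot (isTriple_Jm.skew b) T.transpose
  rw [transpose_transpose] at hs
  have hback : T * (T.transpose * Jm b * T) * T.transpose = Jm b := by
    simp only [← Matrix.mul_assoc, mul_eq_one_comm.1 hT, Matrix.one_mul]
    rw [Matrix.mul_assoc, mul_eq_one_comm.1 hT, Matrix.mul_one]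
  have h1 := wedge_rot hd (isTriple_Jp.skew a) hs
  have h2 := pair_conj hT (Jp a) (T.transpose * Jm b * T)
  rw [hback] at h1 h2
  rw [wedge_Jm (skew_rot (isTriple_Jp.skew a) T), wedge_comm', wedge_Jp hs, pair_comm _ (Jp a),
    ← h2] at h1
  rw [pair_comm]
  linarith

omit hd in
/-- The matrix by which a rotation acts on the forms of a triple. -/
theorem rot_triple {J : Fin 3 → M4} (hJ : IsTriple J)
    (hort : ∀ a b, pair (J a) (J b) = 4 * (1 : M3) a b)
    (hspan : ∀ a, T * J a * T.transpose = ∑ b, (pair (J b) (T * J a * T.transpose) / 4) • J b) :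
    ∃ c : M3, c.transpose * c = 1 ∧ c.det = 1 ∧
      ∀ a, T * J a * T.transpose = ∑ b, c a b • J b := by
  set c : M3 := Matrix.of fun a b => pair (J b) (T * J a * T.transpose) / 4 with hc
  have hTJ : ∀ a, T * J a * T.transpose = ∑ b, c a b • J b := fun a => hspan a
  have hcc : c * c.transpose = 1 := by
    ext a b
    have h := pair_conj hT (J a) (J b)
    rw [hTJ b, pair_sum_right, hort] at h
    have e : ∀ d, pair (T * J a * T.transpose) (J d) = 4 * c a d := by
      intro d
      rw [pair_comm]
      simp only [hc, of_apply]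
      ring
    simp only [e] at h
    rw [mul_apply]
    simp only [transpose_apply]
    rw [Finset.sum_congr rfl fun d _ => show c b d * (4 * c a d) = 4 * (c a d * c b d) by ring,
      ← Finset.mul_sum] at h
    linarith
  refine ⟨c, mul_eq_one_comm.1 hcc, ?_, hTJ⟩
  have hsq : c.det * c.det = 1 := by
    have := congrArg Matrix.det hcc
    rwa [det_mul, det_transpose, det_one] at this
  have h01 : (T * J 0 * T.transpose) * (T * J 1 * T.transpose) = T * J 2 * T.transpose := by
    simp only [Matrix.mul_assoc]
    rw [← Matrix.mul_assoc T.transpose T, hT, Matrix.one_mul, ← Matrix.mul_assoc (J 0), hJ.mul01]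
  rw [hTJ 0, hTJ 1, hTJ 2] at h01
  -- pairing the product with each form gives the cross product
  have hprod := fun b => congrArg (pair (J b)) h01
  simp only [Fin.sum_univ_three, Matrix.add_mul, Matrix.mul_add, Matrix.smul_mul, Matrix.mul_smul,
    hJ.sq, hJ.mul01, hJ.mul12, hJ.mul20, hJ.mul10, hJ.mul21, hJ.mul02, pair_eq_trace,
    trace_add, trace_smul, trace_neg, Matrix.mul_neg, Matrix.mul_one, smul_eq_mul] at hprod
  have hp : ∀ a b, ((J a).transpose * J b).trace = 4 * (1 : M3) a b := fun a b => by
    rw [← pair_eq_trace, hort]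
  have ht : ∀ a, ((J a).transpose).trace = 0 := fun a => by
    have := congrArg Matrix.trace (hJ.skew a)
    rw [trace_neg, trace_transpose] at this
    rw [trace_transpose]
    linarith
  simp only [hp, ht] at hprod
  have e0 := hprod 0
  have e1 := hprod 1
  have e2 := hprod 2
  simp at e0 e1 e2
  have hrow : c 2 0 * c 2 0 + c 2 1 * c 2 1 + c 2 2 * c 2 2 = 1 := by
    have := congrFun (congrFun hcc 2) 2
    simpa [mul_apply, Fin.sum_univ_three] using this
  rw [det_fin_three]
  linear_combination hrow + (c 2 0 / 4) * e0 + (c 2 1 / 4) * e1 + (c 2 2 / 4) * e2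

/-- A rotation acts on the self-dual forms by a rotation. -/
theorem exists_rot_Jp : ∃ c : M3, c.transpose * c = 1 ∧ c.det = 1 ∧
    ∀ a, T * Jp a * T.transpose = ∑ b, c a b • Jp b := by
  refine rot_triple hT isTriple_Jp pair_Jp_Jp fun a => ?_
  conv_lhs => rw [decomp (skew_rot (isTriple_Jp.skew a) T)]
  simp [pair_rot_Jp_Jm hT hd]

/-- A rotation acts on the anti-self-dual forms by a rotation. -/
theorem exists_rot_Jm : ∃ c : M3, c.transpose * c = 1 ∧ c.det = 1 ∧
    ∀ a, T * Jm a * T.transpose = ∑ b, c a b • Jm b := by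
  refine rot_triple hT isTriple_Jm pair_Jm_Jm fun a => ?_
  conv_lhs => rw [decomp (skew_rot (isTriple_Jm.skew a) T)]
  have h : ∀ b, pair (Jp b) (T * Jm a * T.transpose) = 0 := by
    intro b
    have hT' : T.transpose.transpose * T.transpose = 1 := by
      rw [transpose_transpose, mul_eq_one_comm.1 hT]
    have h1 := pair_rot_Jp_Jm hT' (by rw [det_transpose, hd]) b a
    rw [transpose_transpose] at h1
    have h2 := pair_conj hT (Jm a) (T.transpose * Jp b * T)
    rw [h1] at h2
    have hback : T * (T.transpose * Jp b * T) * T.transpose = Jp b := by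
      simp only [← Matrix.mul_assoc, mul_eq_one_comm.1 hT, Matrix.one_mul]
      rw [Matrix.mul_assoc, mul_eq_one_comm.1 hT, Matrix.mul_one]
    rwa [hback, pair_comm] at h2
  simp [h]

end

end Vale.Agent.P211.SelfDual
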