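import Vale.Agent.P211.Alg.SelfDual.Basic

/-!
# P211: algebraic curvature tensors in block form
-/

open Matrix

namespace Vale.Agent.P211.SelfDual

noncomputable section

/-- The symmetries of a curvature tensor. -/
structure IsCurvTen (R : Ten4) : Prop where
  anti12 : ∀ i j k l, R j i k l = -R i j k l
  anti34 : ∀ i j k l, R i j l k = -R i j k l
  swap : ∀ i j k l, R k l i j = R i j k l
  bianchi : ∀ i j k l, R i j k l + R i k l j + R i l j k = 0

/-- The Ricci contraction. -/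
def ricTen (R : Ten4) (i k : Fin 4) : ℝ := ∑ j, R i j k j

/-- The index pairs through the origin. -/
def pIdx : Fin 3 → Fin 4 × Fin 4 := ![(0, 1), (0, 2), (0, 3)]

/-- The complementary index pairs. -/
def qIdx : Fin 3 → Fin 4 × Fin 4 := ![(2, 3), (3, 1), (1, 2)]

/-- A component of the curvature on two index pairs. -/
def comp (R : Ten4) (p q : Fin 4 × Fin 4) : ℝ := R p.1 p.2 q.1 q.2

variable {R : Ten4} (hR : IsCurvTen R)
include hR

theorem IsCurvTen.diag12 (i k l : Fin 4) : R i i k l = 0 := by linarith [hR.anti12 i i k l]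

theorem IsCurvTen.diag34 (i j k : Fin 4) : R i j k k = 0 := by linarith [hR.anti34 i j k k]

theorem IsCurvTen.comp_comm (p q : Fin 4 × Fin 4) : comp R q p = comp R p q :=
  hR.swap p.1 p.2 q.1 q.2

omit hR in
theorem sum_skew {A f : Fin 4 → Fin 4 → ℝ} (hA : ∀ i j, A j i = -A i j)
    (hf : ∀ i j, f j i = -f i j) :
    ∑ i, ∑ j, A i j * f i j =
      2 * (A 0 1 * f 0 1 + A 0 2 * f 0 2 + A 0 3 * f 0 3 + A 2 3 * f 2 3 + A 3 1 * f 3 1 +
        A 1 2 * f 1 2) := by
  have h0 : ∀ i, f i i = 0 := fun i => by linarith [hf i i]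
  simp only [Fin.sum_univ_four, h0, hA 0 1, hA 0 2, hA 0 3, hA 2 3, hA 3 1, hA 1 2, hf 0 1, hf 0 2,
    hf 0 3, hf 2 3, hf 3 1, hf 1 2]
  ring

/-- A row of the block expansion. -/
def row (K : M4) (R : Ten4) (p : Fin 4 × Fin 4) : ℝ :=
  K 0 1 * comp R p (0, 1) + K 0 2 * comp R p (0, 2) + K 0 3 * comp R p (0, 3) +
    K 2 3 * comp R p (2, 3) + K 3 1 * comp R p (3, 1) + K 1 2 * comp R p (1, 2)

theorem block_apply {J K : Fin 3 → M4} (hJ : ∀ a, (J a).transpose = -J a)
    (hK : ∀ a, (K a).transpose = -K a) (a b : Fin 3) :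
    block R J K a b = (J a 0 1 * row (K b) R (0, 1) + J a 0 2 * row (K b) R (0, 2) +
      J a 0 3 * row (K b) R (0, 3) + J a 2 3 * row (K b) R (2, 3) +
      J a 3 1 * row (K b) R (3, 1) + J a 1 2 * row (K b) R (1, 2)) / 2 := by
  have hg : ∀ i j, ∑ k, ∑ l, R i j k l * K b k l = 2 * row (K b) R (i, j) := by
    intro i j
    rw [Finset.sum_congr rfl fun k _ => Finset.sum_congr rfl fun l _ =>
      mul_comm (R i j k l) (K b k l), sum_skew (skew_apply (hK b)) (fun k l => hR.anti34 i j k l)]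
    simp only [row, comp]
  have hrow : ∀ i j, 2 * row (K b) R (j, i) = -(2 * row (K b) R (i, j)) := fun i j => by
    simp only [row, comp, hR.anti12 i j]
    ring
  have e : block R J K a b = 1 / 8 * ∑ i, ∑ j, J a i j * (2 * row (K b) R (i, j)) := by
    simp only [block, of_apply, ← hg, Finset.mul_sum, mul_assoc]
  rw [e, sum_skew (skew_apply (hJ a)) hrow]
  ring

theorem block_pp (a b : Fin 3) :
    block R Jp Jp a b = (comp R (pIdx a) (pIdx b) + comp R (pIdx a) (qIdx b) +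
      comp R (qIdx a) (pIdx b) + comp R (qIdx a) (qIdx b)) / 2 := by
  rw [block_apply hR isTriple_Jp.skew isTriple_Jp.skew]
  fin_cases a <;> fin_cases b <;> simp [row, Jp, pIdx, qIdx] <;> ring

theorem block_mm (a b : Fin 3) :
    block R Jm Jm a b = (comp R (pIdx a) (pIdx b) - comp R (pIdx a) (qIdx b) -
      comp R (qIdx a) (pIdx b) + comp R (qIdx a) (qIdx b)) / 2 := by
  rw [block_apply hR isTriple_Jm.skew isTriple_Jm.skew]
  fin_cases a <;> fin_cases b <;> simp [row, Jm, pIdx, qIdx] <;> ring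

theorem block_pm (a b : Fin 3) :
    block R Jp Jm a b = -(comp R (pIdx a) (pIdx b) - comp R (pIdx a) (qIdx b) +
      comp R (qIdx a) (pIdx b) - comp R (qIdx a) (qIdx b)) / 2 := by
  rw [block_apply hR isTriple_Jp.skew isTriple_Jm.skew]
  fin_cases a <;> fin_cases b <;> simp [row, Jp, Jm, pIdx, qIdx] <;> ring

theorem block_pp_symm : (block R Jp Jp).IsSymm := by
  ext a b
  rw [transpose_apply, block_pp hR, block_pp hR]
  linarith [hR.comp_comm (pIdx a) (pIdx b), hR.comp_comm (pIdx a) (qIdx b),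
    hR.comp_comm (qIdx a) (pIdx b), hR.comp_comm (qIdx a) (qIdx b)]

theorem block_mm_symm : (block R Jm Jm).IsSymm := by
  ext a b
  rw [transpose_apply, block_mm hR, block_mm hR]
  linarith [hR.comp_comm (pIdx a) (pIdx b), hR.comp_comm (pIdx a) (qIdx b),
    hR.comp_comm (qIdx a) (pIdx b), hR.comp_comm (qIdx a) (qIdx b)]

theorem IsCurvTen.trace_pq : ∑ a, comp R (pIdx a) (qIdx a) = 0 := by
  simpa [comp, pIdx, qIdx, Fin.sum_univ_three] using hR.bianchi 0 1 2 3

theorem IsCurvTen.ricTen_symm (i k : Fin 4) : ricTen R k i = ricTen R i k := by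
  simp only [ricTen]
  exact Finset.sum_congr rfl fun j _ => hR.swap i j k j

/-- The Ricci contraction in terms of the six by six components. -/
theorem ricTen_expand :
    ricTen R 0 0 = comp R (pIdx 0) (pIdx 0) + comp R (pIdx 1) (pIdx 1) +
      comp R (pIdx 2) (pIdx 2) ∧
    ricTen R 1 1 = comp R (pIdx 0) (pIdx 0) + comp R (qIdx 1) (qIdx 1) +
      comp R (qIdx 2) (qIdx 2) ∧
    ricTen R 2 2 = comp R (pIdx 1) (pIdx 1) + comp R (qIdx 0) (qIdx 0) +
      comp R (qIdx 2) (qIdx 2) ∧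
    ricTen R 3 3 = comp R (pIdx 2) (pIdx 2) + comp R (qIdx 0) (qIdx 0) +
      comp R (qIdx 1) (qIdx 1) ∧
    ricTen R 0 1 = comp R (pIdx 1) (qIdx 2) - comp R (pIdx 2) (qIdx 1) ∧
    ricTen R 0 2 = comp R (pIdx 2) (qIdx 0) - comp R (pIdx 0) (qIdx 2) ∧
    ricTen R 0 3 = comp R (pIdx 0) (qIdx 1) - comp R (pIdx 1) (qIdx 0) ∧
    ricTen R 1 2 = comp R (pIdx 0) (pIdx 1) - comp R (qIdx 1) (qIdx 0) ∧
    ricTen R 1 3 = comp R (pIdx 0) (pIdx 2) - comp R (qIdx 2) (qIdx 0) ∧
    ricTen R 2 3 = comp R (pIdx 1) (pIdx 2) - comp R (qIdx 2) (qIdx 1) := by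
  have d1 := hR.diag12
  have d2 := hR.diag34
  have a1 := hR.anti12
  have a2 := hR.anti34
  refine ⟨?_, ?_, ?_, ?_, ?_, ?_, ?_, ?_, ?_, ?_⟩ <;>
    simp [ricTen, comp, pIdx, qIdx, Fin.sum_univ_four, d1, d2]
  · linarith [a1 0 1 1 0, a2 0 1 0 1, a1 3 1 1 3, a2 3 1 3 1]
  · linarith [a1 0 2 2 0, a2 0 2 0 2, a1 1 2 2 1, a2 1 2 1 2]
  · linarith [a1 0 3 3 0, a2 0 3 0 3, a1 2 3 3 2, a2 2 3 2 3, a1 3 1 1 3, a2 3 1 3 1]
  · linarith [a2 0 3 3 1]
  · linarith [a2 0 1 1 2]
  · linarith [a2 0 2 2 3]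
  · linarith [a1 0 1 2 0, a2 0 1 0 2, a1 3 1 2 3]
  · linarith [a1 0 1 3 0, a2 0 1 0 3, a2 1 2 2 3]
  · linarith [a1 0 2 3 0, a2 0 2 0 3, a1 1 2 3 1]

/-- The Ricci contraction of a curvature tensor is three times the identity exactly when the
mixed block vanishes and the traces of the two other blocks are three. -/
theorem ricTen_eq_three_iff :
    (∀ i k, ricTen R i k = 3 * (1 : M4) i k) ↔
      block R Jp Jm = 0 ∧ (block R Jp Jp).trace = 3 ∧ (block R Jm Jm).trace = 3 := by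
  obtain ⟨r00, r11, r22, r33, r01, r02, r03, r12, r13, r23⟩ := ricTen_expand hR
  have bia := hR.trace_pq
  rw [Fin.sum_univ_three] at bia
  have cm := hR.comp_comm
  have facts : ∀ a b, comp R (qIdx a) (pIdx b) = comp R (pIdx b) (qIdx a) := fun a b => cm _ _
  constructor
  · intro h
    rw [h] at r00 r11 r22 r33 r01 r02 r03 r12 r13 r23
    simp at r00 r11 r22 r33 r01 r02 r03 r12 r13 r23
    refine ⟨?_, ?_, ?_⟩
    · ext a b
      rw [block_pm hR, Matrix.zero_apply, facts]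
      fin_cases a <;> fin_cases b <;> simp <;>
        linarith [cm (pIdx 0) (pIdx 1), cm (pIdx 0) (pIdx 2), cm (pIdx 1) (pIdx 2),
          cm (qIdx 0) (qIdx 1), cm (qIdx 0) (qIdx 2), cm (qIdx 1) (qIdx 2)]
    · simp only [Matrix.trace, Matrix.diag, Fin.sum_univ_three, block_pp hR, facts]
      linarith
    · simp only [Matrix.trace, Matrix.diag, Fin.sum_univ_three, block_mm hR, facts]
      linarith
  · rintro ⟨h0, hp, hm⟩ i k
    have h : ∀ a b, block R Jp Jm a b = 0 := fun a b => by rw [h0, Matrix.zero_apply]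
    simp only [Matrix.trace, Matrix.diag, Fin.sum_univ_three, block_pp hR, facts] at hp
    simp only [Matrix.trace, Matrix.diag, Fin.sum_univ_three, block_mm hR, facts] at hm
    have e00 := h 0 0; have e01 := h 0 1; have e02 := h 0 2
    have e10 := h 1 0; have e11 := h 1 1; have e12 := h 1 2
    have e20 := h 2 0; have e21 := h 2 1; have e22 := h 2 2
    simp only [block_pm hR, facts] at e00 e01 e02 e10 e11 e12 e20 e21 e22
    fin_cases i <;> fin_cases k <;> simp <;>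
      linarith [hR.ricTen_symm 0 1, hR.ricTen_symm 0 2, hR.ricTen_symm 0 3, hR.ricTen_symm 1 2,
        hR.ricTen_symm 1 3, hR.ricTen_symm 2 3, cm (pIdx 0) (pIdx 1), cm (pIdx 0) (pIdx 2),
        cm (pIdx 1) (pIdx 2), cm (qIdx 0) (qIdx 1), cm (qIdx 0) (qIdx 2), cm (qIdx 1) (qIdx 2)]

end

end Vale.Agent.P211.SelfDual
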