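import Vale.Agent.P211.Alg.SelfDual.Curv
import Vale.Agent.P211.Alg.Spectral.Curve

/-!
# P211: the Weyl blocks under a change of positively oriented orthonormal frame
-/

open Matrix

namespace Vale.Agent.P211.SelfDual

noncomputable section

/-- A four-tensor as a matrix on index pairs. -/
def flat (R : Ten4) : Matrix (Fin 4 × Fin 4) (Fin 4 × Fin 4) ℝ :=
  Matrix.of fun p q => comp R p q

/-- A two-tensor as a vector on index pairs. -/
def flatVec (A : M4) : Fin 4 × Fin 4 → ℝ := fun p => A p.1 p.2

theorem block_eq_flat (R : Ten4) (J K : Fin 3 → M4) (a b : Fin 3) :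
    block R J K a b = 1 / 8 * (flatVec (J a) ⬝ᵥ flat R *ᵥ flatVec (K b)) := by
  simp only [block, of_apply, dotProduct, mulVec, flat, flatVec, comp, Fintype.sum_prod_type,
    Finset.mul_sum, mul_assoc]

/-- The square of a matrix on index pairs. -/
def kron (T : M4) : Matrix (Fin 4 × Fin 4) (Fin 4 × Fin 4) ℝ :=
  Matrix.of fun p q => T p.1 q.1 * T p.2 q.2

theorem flatVec_conj (T A : M4) : flatVec (T * A * T.transpose) = kron T *ᵥ flatVec A := by
  funext p
  simp only [flatVec, kron, mulVec, dotProduct, of_apply, Fintype.sum_prod_type, mul_apply,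
    transpose_apply, Finset.sum_mul]
  rw [Finset.sum_comm]
  exact Finset.sum_congr rfl fun i _ => Finset.sum_congr rfl fun j _ => by ring

theorem flat_inFrame (T : M4) (R : Ten4) :
    flat (inFrame T R) = (kron T).transpose * flat R * kron T := by
  ext p q
  simp only [flat, inFrame, comp, of_apply, mul_apply, transpose_apply, kron,
    Fintype.sum_prod_type, Finset.sum_mul]
  calc ∑ i, ∑ j, ∑ k, ∑ l, R i j k l * T i p.1 * T j p.2 * T k q.1 * T l q.2
      = ∑ ij : Fin 4 × Fin 4, ∑ kl : Fin 4 × Fin 4,
          R ij.1 ij.2 kl.1 kl.2 * T ij.1 p.1 * T ij.2 p.2 * T kl.1 q.1 * T kl.2 q.2 := by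
        simp only [Fintype.sum_prod_type]
    _ = ∑ kl : Fin 4 × Fin 4, ∑ ij : Fin 4 × Fin 4,
          R ij.1 ij.2 kl.1 kl.2 * T ij.1 p.1 * T ij.2 p.2 * T kl.1 q.1 * T kl.2 q.2 :=
        Finset.sum_comm
    _ = _ := by
        simp only [Fintype.sum_prod_type]
        exact Finset.sum_congr rfl fun k _ => Finset.sum_congr rfl fun l _ =>
          Finset.sum_congr rfl fun i _ => Finset.sum_congr rfl fun j _ => by ring

theorem kron_mul (S T : M4) : kron (S * T) = kron S * kron T := by
  ext p q
  simp only [kron, of_apply, mul_apply, Fintype.sum_prod_type, Finset.sum_mul_sum]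
  exact Finset.sum_congr rfl fun i _ => Finset.sum_congr rfl fun j _ => by ring

theorem inFrame_mul (S T : M4) (R : Ten4) :
    inFrame (S * T) R = inFrame T (inFrame S R) := by
  have h : flat (inFrame (S * T) R) = flat (inFrame T (inFrame S R)) := by
    simp only [flat_inFrame, kron_mul, transpose_mul, Matrix.mul_assoc]
  funext a b c d
  exact congrFun (congrFun h (a, b)) (c, d)

theorem IsCurvTen.inFrame {R : Ten4} (hR : IsCurvTen R) (P : M4) :
    IsCurvTen (inFrame P R) := by
  refine ⟨fun a b c d => ?_, fun a b c d => ?_, fun a b c d => ?_, fun a b c d => ?_⟩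
  · simp only [Vale.Agent.P211.inFrame, ← Finset.sum_neg_distrib]
    rw [Finset.sum_comm]
    refine Finset.sum_congr rfl fun i _ => Finset.sum_congr rfl fun j _ =>
      Finset.sum_congr rfl fun k _ => Finset.sum_congr rfl fun l _ => ?_
    rw [hR.anti12 i j k l]; ring
  · simp only [Vale.Agent.P211.inFrame, ← Finset.sum_neg_distrib]
    refine Finset.sum_congr rfl fun i _ => Finset.sum_congr rfl fun j _ => ?_
    rw [Finset.sum_comm]
    refine Finset.sum_congr rfl fun k _ => Finset.sum_congr rfl fun l _ => ?_
    rw [hR.anti34 i j k l]; ring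
  · have h : flat (Vale.Agent.P211.inFrame P R) =
        (flat (Vale.Agent.P211.inFrame P R)).transpose := by
      have hs : (flat R).transpose = flat R := by
        ext p q
        exact hR.comp_comm p q
      rw [flat_inFrame, transpose_mul, transpose_mul, hs, transpose_transpose, Matrix.mul_assoc]
    exact (congrFun (congrFun h (a, b)) (c, d)).symm
  · simp only [Vale.Agent.P211.inFrame]
    calc _ = ∑ i, ∑ j, ∑ k, ∑ l,
          (R i j k l + R i k l j + R i l j k) * (P i a * P j b * P k c * P l d) := by
          simp only [add_mul, Finset.sum_add_distrib]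
          refine congrArg₂ (· + ·) (congrArg₂ (· + ·) ?_ ?_) ?_
          · exact Finset.sum_congr rfl fun i _ => Finset.sum_congr rfl fun j _ =>
              Finset.sum_congr rfl fun k _ => Finset.sum_congr rfl fun l _ => by ring
          · refine Finset.sum_congr rfl fun i _ => ?_
            conv_rhs => rw [Finset.sum_comm]
            refine Finset.sum_congr rfl fun j _ => ?_
            rw [Finset.sum_comm]
            exact Finset.sum_congr rfl fun l _ => Finset.sum_congr rfl fun k _ => by ring
          · refine Finset.sum_congr rfl fun i _ => ?_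
            rw [Finset.sum_comm]
            refine Finset.sum_congr rfl fun l _ => ?_
            rw [Finset.sum_comm]
            exact Finset.sum_congr rfl fun k _ => Finset.sum_congr rfl fun j _ => by ring
      _ = 0 := by simp [hR.bianchi]

theorem flatVec_sum_smul (c : Fin 3 → ℝ) (J : Fin 3 → M4) :
    flatVec (∑ b, c b • J b) = ∑ b, c b • flatVec (J b) := by
  funext p
  simp [flatVec, Finset.sum_apply, Matrix.sum_apply]

/-- The blocks in a rotated frame. -/
theorem block_inFrame (T : M4) (R : Ten4) {J K : Fin 3 → M4} {c e : M3}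
    (hc : ∀ a, T * J a * T.transpose = ∑ b, c a b • J b)
    (he : ∀ a, T * K a * T.transpose = ∑ b, e a b • K b) :
    block (inFrame T R) J K = c * block R J K * e.transpose := by
  ext a b
  rw [block_eq_flat, flat_inFrame, ← mulVec_mulVec, ← mulVec_mulVec, dotProduct_mulVec,
    vecMul_transpose, ← flatVec_conj, ← flatVec_conj, hc, he, flatVec_sum_smul, flatVec_sum_smul]
  simp only [mul_apply, transpose_apply, block_eq_flat, Finset.sum_mul, mulVec_sum, mulVec_smul,
    sum_dotProduct, dotProduct_sum, smul_dotProduct, dotProduct_smul, smul_eq_mul, Finset.mul_sum]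
  exact Finset.sum_congr rfl fun i _ => Finset.sum_congr rfl fun j _ => by ring

/-- The self-dual Weyl curvature in the frame `P`, for Ricci tensor three times the metric. -/
def weylP (R : Ten4) (P : M4) : M3 := block (inFrame P R) Jp Jp - 1

/-- The anti-self-dual Weyl curvature in the frame `P`. -/
def weylM (R : Ten4) (P : M4) : M3 := block (inFrame P R) Jm Jm - 1

theorem exists_transition {G P P' : M4} (hP : IsPosFrame G P) (hP' : IsPosFrame G P') :
    ∃ T : M4, P' = P * T ∧ T.transpose * T = 1 ∧ T.det = 1 := by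
  obtain ⟨h1, h2⟩ := hP
  obtain ⟨h1', h2'⟩ := hP'
  refine ⟨P.transpose * G * P', ?_, ?_, ?_⟩
  · rw [← Matrix.mul_assoc, mul_eq_one_comm.1 h1, Matrix.one_mul]
  all_goals
    have e : P * (P.transpose * G * P') = P' := by
      rw [← Matrix.mul_assoc, mul_eq_one_comm.1 h1, Matrix.one_mul]
    generalize hTdef : P.transpose * G * P' = T at e ⊢
    subst e
    have ho : T.transpose * T = 1 := by
      rw [transpose_mul] at h1'
      calc T.transpose * T = T.transpose * (P.transpose * G * P) * T := by
            rw [h1, Matrix.mul_one]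
        _ = 1 := by rw [← h1']; simp only [Matrix.mul_assoc]
  · exact ho
  · have hsq : T.det * T.det = 1 := by
      have := congrArg Matrix.det ho
      rwa [det_mul, det_transpose, det_one] at this
    rw [det_mul] at h2'
    nlinarith [pos_of_mul_pos_right h2' h2.le]

/-- The Weyl blocks of two positively oriented orthonormal frames are conjugate by rotations. -/
theorem weyl_frame_change (R : Ten4) {G P P' : M4} (hP : IsPosFrame G P)
    (hP' : IsPosFrame G P') :
    (∃ c : M3, c.transpose * c = 1 ∧ c.det = 1 ∧ weylP R P' = Spectral.conj c (weylP R P)) ∧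
      ∃ c : M3, c.transpose * c = 1 ∧ c.det = 1 ∧ weylM R P' = Spectral.conj c (weylM R P) := by
  obtain ⟨T, rfl, hT, hd⟩ := exists_transition hP hP'
  obtain ⟨c, hc, hcd, hcJ⟩ := exists_rot_Jp hT hd
  obtain ⟨e, he, hed, heJ⟩ := exists_rot_Jm hT hd
  refine ⟨⟨c, hc, hcd, ?_⟩, ⟨e, he, hed, ?_⟩⟩
  · rw [weylP, weylP, inFrame_mul, block_inFrame T _ hcJ hcJ, Spectral.conj, Matrix.mul_sub,
      Matrix.sub_mul, Matrix.mul_one, mul_eq_one_comm.1 hc]
  · rw [weylM, weylM, inFrame_mul, block_inFrame T _ heJ heJ, Spectral.conj, Matrix.mul_sub,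
      Matrix.sub_mul, Matrix.mul_one, mul_eq_one_comm.1 he]

/-- The Weyl blocks are symmetric and trace free when the Ricci contraction is three times the
identity. -/
theorem weyl_symm_trace {R : Ten4} (hR : IsCurvTen R)
    (hric : ∀ i k, ricTen R i k = 3 * (1 : M4) i k) :
    ((block R Jp Jp - 1).IsSymm ∧ (block R Jp Jp - 1).trace = 0) ∧
      (block R Jm Jm - 1).IsSymm ∧ (block R Jm Jm - 1).trace = 0 := by
  obtain ⟨-, hp, hm⟩ := (ricTen_eq_three_iff hR).1 hric
  refine ⟨⟨(block_pp_symm hR).sub isSymm_one, ?_⟩, (block_mm_symm hR).sub isSymm_one, ?_⟩ <;>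
    simp [trace_sub, hp, hm]

end

end Vale.Agent.P211.SelfDual
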