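import Vale.Agent.P211.Alg.SelfDual.Curv

/-!
# P211: checks of the conventions
-/

open Matrix

namespace Vale.Agent.P211.SelfDual

noncomputable section

/-- The curvature tensor of the unit sphere. -/
def sphereTen : Ten4 := fun i j k l => (1 : M4) i k * (1 : M4) j l - (1 : M4) i l * (1 : M4) j k

/-- The tensor of the area element of the `i j`-plane. -/
def planeTen (a b : Fin 4) : Ten4 := fun i j k l =>
  ((1 : M4) i a * (1 : M4) j b - (1 : M4) i b * (1 : M4) j a) *
    ((1 : M4) k a * (1 : M4) l b - (1 : M4) k b * (1 : M4) l a)

/-- The curvature tensor of the product of two round spheres with Ricci tensor three times the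
metric. -/
def productTen : Ten4 := fun i j k l => 3 * planeTen 0 1 i j k l + 3 * planeTen 2 3 i j k l

/-- The unit sphere has both blocks equal to the identity. -/
theorem block_sphereTen : block sphereTen Jp Jp = 1 ∧ block sphereTen Jm Jm = 1 := by
  have hR : IsCurvTen sphereTen :=
    ⟨fun i j k l => by simp only [sphereTen]; ring, fun i j k l => by simp only [sphereTen]; ring,
      fun i j k l => by simp only [sphereTen, one_apply, eq_comm]; ring,
      fun i j k l => by simp only [sphereTen, one_apply, eq_comm]; ring⟩
  constructor <;> ext a b
  · rw [block_pp hR]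
    fin_cases a <;> fin_cases b <;> simp [comp, pIdx, qIdx] <;> simp [sphereTen]
  · rw [block_mm hR]
    fin_cases a <;> fin_cases b <;> simp [comp, pIdx, qIdx] <;> simp [sphereTen]

/-- The product of two spheres has both blocks equal to `diag (3, 0, 0)`. -/
theorem block_productTen :
    block productTen Jp Jp = diagonal ![3, 0, 0] ∧ block productTen Jm Jm = diagonal ![3, 0, 0] := by
  have hR : IsCurvTen productTen :=
    ⟨fun i j k l => by simp only [productTen, planeTen]; ring,
      fun i j k l => by simp only [productTen, planeTen]; ring,
      fun i j k l => by simp only [productTen, planeTen]; ring,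
      fun i j k l => by simp only [productTen, planeTen]; ring⟩
  constructor <;> ext a b
  · rw [block_pp hR]
    fin_cases a <;> fin_cases b <;> simp [comp, pIdx, qIdx] <;> simp [productTen, planeTen]
  · rw [block_mm hR]
    fin_cases a <;> fin_cases b <;> simp [comp, pIdx, qIdx] <;> simp [productTen, planeTen]

theorem gam_symm {G : Euc4 → M4} (hG : ∀ y i j, G y j i = G y i j) (x : Euc4) (k i j : Fin 4) :
    gam G x k j i = gam G x k i j := by
  simp only [gam, hG _ i j]
  congr 1
  exact Finset.sum_congr rfl fun l _ => by ring

/-- The coordinate Ricci tensor is the contraction of the curvature. -/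
theorem ric_eq_sum_riemUp {G : Euc4 → M4} (hG : ∀ y i j, G y j i = G y i j) (x : Euc4)
    (i j : Fin 4) : ric G x i j = ∑ k, riemUp G x k i k j := by
  have e : ∀ k, (fun y => gam G y k j i) = fun y => gam G y k i j :=
    fun k => funext fun y => gam_symm hG y k i j
  have e' : ∀ k, (fun y => gam G y k k i) = fun y => gam G y k i k :=
    fun k => funext fun y => gam_symm hG y k i k
  simp only [ric, riemUp, e, e', Finset.sum_add_distrib, Finset.sum_sub_distrib]
  congr 1
  refine congrArg₂ (· - ·) ?_ ?_ <;>
    exact Finset.sum_congr rfl fun k _ => Finset.sum_congr rfl fun l _ => by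
      first
        | rw [gam_symm hG x l i j]
        | rw [gam_symm hG x l i k]

end

end Vale.Agent.P211.SelfDual
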